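import Vale.Agent.P251.S.LimComplex
import Vale.Agent.P261.H355.C
import Vale.Agent.P261.H452.B6
import Vale.Agent.P261.H541.E
import Vale.Agent.P261.H555.A2
import Vale.Agent.P261.H654.D1
import Vale.Agent.P261.H654.D2
import Vale.Agent.P261.H808.B7a

/-!
# P261, leaf F: assembly

`zero_line p h w` : the compatible families of cocycles of degree `0` of `towerN p h w`. It is finite
(`zero_line_finite`), and zero for `w < 0`, `2 ≤ h` (`zero_line_neg`).
-/

open Vale.Agent.P251.F Vale.Agent.P251 Vale.Agent.P217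

namespace Vale.Agent.P261

/-- The compatible families of cocycles of degree `0` of `towerN p h w`. -/
def zero_line (p h : ℕ) [Fact p.Prime] (w : ℤ) : Set (∀ j, (I.towerN p h w).C 0 j) :=
  {z | (∀ j, (I.towerN p h w).r 0 j (z (j + 1)) = z j) ∧ ∀ j, (I.towerN p h w).d 0 j (z j) = 0}

namespace H658

theorem fin_one {p h : ℕ} [Fact p.Prime] {k : Type} [Field k] {H : Law k}
    (hk : Nat.card k = p ^ h) (hH : HondaOver p h H.toFG) (L : Lev p h H 1) (hm : 1 ≤ L.m) :
    L.IsFin := by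
  have h1 := L.hm
  exact H808.isFin_of_curve L fun w =>
    Curve.fin hm (by rw [h1]; exact hk) (by rw [h1]; exact hH) _ w

/-- all levels are finite -/
theorem isFin {p h : ℕ} [Fact p.Prime] {k : Type} [Field k] {H : Law k}
    (hk : Nat.card k = p ^ h) (hH : HondaOver p h H.toFG) :
    ∀ (n : ℕ) (L : Lev p h H (n + 1)), 1 ≤ L.m → L.IsFin
  | 0, L, hm => fin_one hk hH L hm
  | n + 1, L, hm => Lev.fin_succ (isFin hk hH n) L hm

variable {p h : ℕ} [Fact p.Prime] {k : Type} [Field k] (D : LTD p h k)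

/-- the values of a family of cocycles -/
theorem exists_val {w : ℤ} {z : ∀ j, (I.towerN p h w).C 0 j} (hz : z ∈ zero_line p h w) :
    ∃ b : MvPowerSeries (Fin (h - 1)) k, ∀ j, tr k (h - 1) j b = valE D j (z j).1 :=
  exists_lim (fun j => valE D j (z j).1) fun j => by
    rw [red_valE D j (z (j + 1)).1]
    exact congrArg (valE D j) (congrArg Subtype.val (hz.1 j))

/-- the value -/
noncomputable def val {w : ℤ} (z : zero_line p h w) : MvPowerSeries (Fin (h - 1)) k :=
  (exists_val D z.2).choose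

theorem tr_val {w : ℤ} (z : zero_line p h w) (j : ℕ) :
    tr k (h - 1) j (val D z) = valE D j (z.1 j).1 := (exists_val D z.2).choose_spec j

theorem val_mem {L : Lev p h D.H (h - 1)}
    (hL : ∀ j γ, (∀ a, tr k (h - 1) j (L.φ γ a) =
      (D.coPt j).phi (D.sm j γ) (tr k (h - 1) j a)) ∧
      InvSeries.map (tr k (h - 1) j) (L.g γ) = (D.coPt j).ser (D.sm j γ)) {w : ℤ}
    (z : zero_line p h w) : val D z ∈ L.inv w := by
  intro γ
  refine tr_ext fun j => ?_
  rw [(hL j γ).1, tr_val, valE_form D j w _ (z.1 j).2 (congrArg Subtype.val (z.2.2 j)) γ, map_mul,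
    tr_val, ← (hL j γ).2, InvSeries.lead_map, ← map_zpow, Units.coe_map]
  rfl

theorem val_inj {w : ℤ} : Function.Injective (val D : zero_line p h w → _) := by
  intro z z' hzz
  apply Subtype.ext
  funext j
  apply Subtype.ext
  have h1 : valE D j ((z.1 j).1 - (z'.1 j).1) = 0 := by
    rw [map_sub, ← tr_val, ← tr_val, hzz, sub_self]
  have h2 : Cob.d 0 ((z.1 j).1 - (z'.1 j).1) = 0 := by
    have e1 : Cob.d 0 (z.1 j).1 = 0 := congrArg Subtype.val (z.2.2 j)
    have e2 : Cob.d 0 (z'.1 j).1 = 0 := congrArg Subtype.val (z'.2.2 j)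
    rw [map_sub, e1, e2, sub_zero]
  exact sub_eq_zero.1 (valE_inj D j w _ ((z.1 j) - (z'.1 j)).2 h2 h1)

end H658

open H658

theorem zero_line_finite (p h : ℕ) [Fact p.Prime] (hh : 1 ≤ h) (w : ℤ) :
    (zero_line p h w).Finite := by
  obtain ⟨D, hX⟩ := exists_LTD_X p h (by omega)
  obtain ⟨L, hm, hL⟩ := exists_lev D hX
  have hfin : (L.inv w : Set (MvPowerSeries (Fin (h - 1)) (GaloisField p h))).Finite := by
    obtain ⟨n, rfl⟩ | rfl : (∃ n, h = n + 2) ∨ h = 1 := by
      rcases Nat.lt_or_ge h 2 with h1 | h1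
      · exact Or.inr (by omega)
      · exact Or.inl ⟨h - 2, by omega⟩
    · exact (isFin D.card D.honda n L hm.ge w).1
    · have : Finite (GaloisField p 1) := Nat.finite_of_card_ne_zero (by
        rw [D.card]
        exact pow_ne_zero _ (Fact.out : p.Prime).ne_zero)
      have : Finite (Fin (1 - 1) →₀ ℕ) := inferInstanceAs (Finite (Fin 0 →₀ ℕ))
      have : Finite (MvPowerSeries (Fin (1 - 1)) (GaloisField p 1)) :=
        inferInstanceAs (Finite ((Fin (1 - 1) →₀ ℕ) → GaloisField p 1))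
      exact Set.toFinite _
  have : Finite (L.inv w : Set (MvPowerSeries (Fin (h - 1)) (GaloisField p h))) := hfin
  exact Finite.of_injective
    (fun z : zero_line p h w => (⟨val D z, val_mem D hL z⟩ : (L.inv w : Set _)))
    fun z z' hzz => val_inj D (congrArg Subtype.val hzz)

theorem zero_line_neg (p h : ℕ) [Fact p.Prime] (hh : 2 ≤ h) (w : ℤ) (hw : w < 0)
    (z : ∀ j, (I.towerN p h w).C 0 j) (hz : z ∈ zero_line p h w) : z = 0 := by
  obtain ⟨D, hX⟩ := exists_LTD_X p h (by omega)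
  obtain ⟨L, hm, hL⟩ := exists_lev D hX
  obtain ⟨n, rfl⟩ : ∃ n, h = n + 2 := ⟨h - 2, by omega⟩
  have h0 := (isFin D.card D.honda n L hm.ge w).2 hw (val D ⟨z, hz⟩) (val_mem D hL ⟨z, hz⟩)
  funext j
  apply Subtype.ext
  have h1 : valE D j (z j).1 = 0 := by
    rw [← tr_val D ⟨z, hz⟩ j, h0, map_zero]
  exact valE_inj D j w _ (z j).2 (congrArg Subtype.val (hz.2 j)) h1

end Vale.Agent.P261
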